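import Vale.Agent.helper8.P302DataGapB

namespace Vale.Agent.Results.P302.GapB

open Vale.Agent.helper8.BinPackGap Vale.Agent.helper8.P302DataGapB

/-- There is a bin packing instance with `OPT - LP ≥ 29/24`. -/
theorem result : ∃ a : List ℚ, IsInstance a ∧ (29 / 24 : ℝ) ≤ (OPT a : ℝ) - LP a := by
  have hinf : ¬ Fits s ((List.replicate 10 L : List ℕ) : Multiset ℕ) :=
    not_fits_of_cert (lvls := table) (by decide +kernel) (by decide +kernel)
  have h := gap_of_certificate L 10 24 (by decide) (by decide) s pats
    (by decide +kernel) hinf (by decide +kernel) (by decide +kernel)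
  refine ⟨_, h.1, ?_⟩
  have h2 := h.2
  have h3 : ((pats.map Prod.fst).sum : ℕ) = 235 := by decide +kernel
  rw [h3] at h2
  norm_num at h2 ⊢
  linarith

end Vale.Agent.Results.P302.GapB
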